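import Vale.Agent.P113.Drift

open Set

namespace Vale.Agent.Results.P113.ForceCompiler

open Vale.Agent.P113

/-- Q1 of P113, answered positively: for every computable `ν > 0` there are a point `a` of `T³`,
an open set `O` of `T³` and a force compiler such that, for every machine `M` and every input `w`,
the Navier–Stokes system with viscosity `ν`, force `f M w` and zero initial velocity has a global
smooth solution, unique among classical solutions on each `[0,T]`, whose trajectory from `a` lies
in `O` at some time `t ≥ 0` if and only if `M` halts on `w`. -/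
theorem result :
    ∀ ν : ℝ, 0 < ν → IsComputableReal ν →
      ∃ (a : Torus) (O : Set Torus) (comp : Descr × List ℕ → Nat.Partrec.Code) (f : ForceFamily),
        IsOpen O ∧ IsForceCompiler comp f ∧
        ∀ (M : Machine) (w : M.Word), ∃ (u : ℝ → Torus → Vec) (p : ℝ → Torus → ℝ),
          IsSmooth u ∧ IsSmooth p ∧
          (∀ T : ℝ, 0 < T → IsClassicalSolution ν (f M w) T u p ∧
            ∀ v q, IsClassicalSolution ν (f M w) T v q →
              ∀ t ∈ Icc 0 T, ∀ X, v t X = u t X ∧ q t X = p t X) ∧
          (∃ Y, IsTrajectory u a Y) ∧
          ∀ Y, IsTrajectory u a Y → ((∃ t, 0 ≤ t ∧ proj (Y t) ∈ O) ↔ M.HaltsOn w) :=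
  exists_compiler_main

end Vale.Agent.Results.P113.ForceCompiler
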