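import Vale.Agent.P113.Drift2

open Set

namespace Vale.Agent.Results.P113.ForceCompilerFar

open Vale.Agent.P113

/-- Q1 of P113, answered positively, with a point `a` and an open set `O` which do not depend on
the viscosity and with `a` at positive distance from `O`. -/
theorem result :
    ∃ (a : Torus) (O : Set Torus), IsOpen O ∧ a ∉ closure O ∧
      ∀ ν : ℝ, 0 < ν → IsComputableReal ν →
        ∃ (comp : Descr × List ℕ → Nat.Partrec.Code) (f : ForceFamily),
          IsForceCompiler comp f ∧
          ∀ (M : Machine) (w : M.Word), ∃ (u : ℝ → Torus → Vec) (p : ℝ → Torus → ℝ),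
            IsSmooth u ∧ IsSmooth p ∧
            (∀ T : ℝ, 0 < T → IsClassicalSolution ν (f M w) T u p ∧
              ∀ v q, IsClassicalSolution ν (f M w) T v q →
                ∀ t ∈ Icc 0 T, ∀ X, v t X = u t X ∧ q t X = p t X) ∧
            (∃ Y, IsTrajectory u a Y) ∧
            ∀ Y, IsTrajectory u a Y → ((∃ t, 0 ≤ t ∧ proj (Y t) ∈ O) ↔ M.HaltsOn w) :=
  exists_compiler_far

end Vale.Agent.Results.P113.ForceCompilerFar
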